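import Vale.Agent.P339.Bridge
import Vale.Agent.P339.CharB
import Vale.Agent.P339.Decode
import Vale.Agent.P339.Good
import Vale.Agent.P339.Junta
import Vale.Agent.P339.Key
import Vale.Agent.P339.Main
import Vale.Agent.P339.Pad
import Vale.Agent.P339.Rank
import Vale.Agent.P339.Stable
import Vale.Agent.P339.Star
import Vale.Agent.P339.Tower

/-!
The 2-to-1 Games Conjecture with perfect completeness.
-/

open Vale.Agent.P339 in
theorem Vale.Agent.Results.P339.ATwoToOne.result :
    ∀ δ : ℝ, 0 < δ → δ < 1 → ∃ q : ℕ, 2 ≤ q ∧ Vale.Agent.P339.TwoToOne.GapNPHard q 1 δ :=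
  fun δ h _ => TwoToOne.conjecture_of
    (core_thm (main_thm CharB.char_thm good_thm (stable_thm rank_thm junta_thm) decode_thm)
      innerTop_thm innerStep_thm pairStep_thm) star_thm key_thm pad_thm δ h
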